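import Crest.Agent.X212.Reg44.Fn
import Crest.Agent.X212.Lin97.Main
import Crest.Agent.X212.Mp86.Res

/-! Row 212, CRIT-REG (helper44): the axioms `AxSm` of the model on `Y`. -/

set_option autoImplicit false
set_option linter.unusedSectionVars false
set_option maxHeartbeats 400000
noncomputable section
open scoped Manifold ContDiff Topology InnerProductSpace
open MeasureTheory Set Function Filter

namespace Crest.Agent.X212.Reg44
open An An.Pre Nd18 Crt72 Sob92 Dgr80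
open Lin97 (Hy)
open Wrd81 (wd)
open Map77 (Cf Prj)

variable {E3 : Type} [NormedAddCommGroup E3] [NormedSpace ℝ E3] [FiniteDimensional ℝ E3]
  [MeasurableSpace E3] [BorelSpace E3]
  {H3 : Type} [TopologicalSpace H3] {I3 : ModelWithCorners ℝ E3 H3} [I3.Boundaryless]
  {Y : Type} [TopologicalSpace Y] [ChartedSpace H3 Y] [IsManifold I3 ∞ Y] [T2Space Y]
  [MeasurableSpace Y] [BorelSpace Y] [SecondCountableTopology Y] [CompactSpace Y]
  {κ : Type} [Fintype κ] {lam : Type} [Fintype lam]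
  {D : YD I3 Y κ lam} {β : YC Y κ lam} {u : YF Y κ lam} {j l k : ℕ}

/-! ### words on the zero spinor -/

section zero
variable {V U : Type} [NormedAddCommGroup V] [InnerProductSpace ℝ V] [CompleteSpace V]
  [NormedAddCommGroup U] [InnerProductSpace ℝ U] [CompleteSpace U]
  {F : Fr I3 Y κ} {A : κ → Y → CL V V} (h : F.res A 0 = 0)
include h

theorem wd_zero : ∀ w : List (SL Y V), wd (sl F A) 0 w = 0
  | [] => rfl
  | .op T :: w => by
    change sl F A (.op T) (wd (sl F A) 0 w) = 0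
    rw [wd_zero w]; funext x; simp [sl]
  | .G :: w => by
    change sl F A .G (wd (sl F A) 0 w) = 0
    rw [wd_zero w]; exact h

theorem slT_zero : ∀ t : SL Y V, slT F A t 0 = 0
  | .op T => funext fun x => by simp [slT]
  | .G => h

theorem bk_zero : ∀ w : List (SL Y V), bk F A w 0 = 0
  | [] => rfl
  | t :: w => by rw [bk, slT_zero h, bk_zero w]

theorem gc_zero (r : CL U (CL V V)) (s : Y → V) : ∀ w : List (SL Y V), gc F A r s w 0 = 0
  | [] => rfl
  | .op T :: w => by rw [gc, slT_zero h, gc_zero r s w]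
  | .G :: w => by
    funext x
    rw [gc, h, gc_zero r s w]
    refine PiLp.ext fun a => ?_
    simp [cur, tp, Wz78.nab]

end zero

theorem sw_zero (h : Hy D β) (h0 : ∀ x, β.Φ x = 0) (T : Pk Y lam) (a b : List (YL Y)) :
    (YF.sw D.F T a b).f β = 0 ∧ (YF.sw D.F T a b).gA β = 0 ∧ (YF.sw D.F T a b).gP β = 0 := by
  have hr : D.F.res (cn β) 0 = 0 := Mp86.res_zero Mp86.bumps_of_compact
    ⟨h.sm_cn, fun a x => Cgr76.skw_cn h.toAdm a x⟩
  have hn : nP β = 0 := funext fun x => by simp [nP, h0]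
  have hw : ∀ w, yw D.F β w = 0 := fun w => by rw [yw, hn, wd_zero hr]
  have hz : ∀ w, (fun z => pk β T z (yw D.F β w z)) = 0 := fun w => funext fun z => by simp [hw]
  refine ⟨by simp [YF.sw, hw], funext fun y => ?_, funext fun y => ?_⟩
  · simp only [YF.sw, hz, ywA, gc_zero hr, Pi.zero_apply, add_zero]
  · simp only [YF.sw, hz, ywP, bk_zero hr, dn, Pi.zero_apply, smul_zero, inner_zero_right,
      mul_zero, zero_smul, sub_zero, add_zero]

theorem yf_zero (h : Hy D β) (h0 : ∀ x, β.Φ x = 0) {i : BB D} (hi : ∀ c, i ≠ .cy c) :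
    (yf D i).f β = 0 ∧ (yf D i).gA β = 0 ∧ (yf D i).gP β = 0 := by
  cases i with
  | cy c => exact absurd rfl (hi c)
  | sw p => exact sw_zero h h0 _ _ _
  | re d => exact sw_zero h h0 _ _ _
  | im d => exact sw_zero h h0 _ _ _

theorem van (h : Hy D β) (hj : 4 ≤ j) (hl : 4 ≤ l) {i : BB D} (hi : ∀ c, i ≠ .cy c)
    {T : CC D β j → CC D β l} (hT : RpT D β (yf D i) j l T) {f : CC D β j → ℝ}
    (hf : Rpf D β (yf D i) j f) {v : CC D β j} (hv : jv D β j v = 0) : f v = 0 ∧ T v = 0 := by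
  have hS := Cgr76.hS h.toHY
  have h1 : ∀ y, Cgr76.sv D β v y = 0 := fun y => by
    have e := Cgr76.val_jv2 h.toHY h.toAdm hj v y
    rw [hv, Prod.snd_zero, val_zero, Pi.zero_apply] at e
    have e2 := congrArg (fun L : En (Fin β.m.N) => L (Cgr76.sv D β v y))
      (Cgr76.mok h.toAdm).Jsq
    simp only [mul_apply_eq_comp, ← e, map_zero] at e2
    simpa using e2
  let φ : Sec I3 (pv D β) := -⟨β.Φ, Lin97.sec_mk h.sm_Φ h.pv_Φ⟩
  have h2 : v.2 = D.F.toH j _ φ := val_injective hS hj (funext fun y => by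
    rw [val_toH hS hj]; exact eq_neg_of_add_eq_zero_right (h1 y))
  obtain ⟨a, b⟩ := v
  obtain rfl : b = _ := h2
  have hc := hT.1.continuous
  have hc' := hf.1
  clear hv h1
  induction a using H_ind with
  | hP => exact (isClosed_eq (hc'.comp (continuous_id.prodMk continuous_const))
            continuous_const).inter
            (isClosed_eq (hc.comp (continuous_id.prodMk continuous_const)) continuous_const)
  | h α =>
    obtain ⟨z1, z2, z3⟩ := yf_zero (h.cf (α, φ)) (fun x => add_neg_cancel (β.Φ x)) hi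
    change f (pt D β j (α, φ)) = 0 ∧ T (pt D β j (α, φ)) = 0
    refine ⟨(hf.2 (α, φ)).trans z1, Cgr76.cc_ext h.toHY hl (fun x a => ?_) fun x => ?_⟩
    · rw [(hT.2 (α, φ) x).1, z2, Prod.fst_zero, val_zero]
      exact congrArg (fun v : Fm κ β.m.A => v a) (map_zero (pc D β x))
    · rw [(hT.2 (α, φ) x).2, z3, Prod.snd_zero, val_zero]
      exact map_zero (pv D β x)

/-! ### `L²` bounds -/

theorem prj_le {V : Type} [NormedAddCommGroup V] [InnerProductSpace ℝ V] {p : Y → V →L[ℝ] V}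
    (h : Prj p) (x : Y) (v : V) : ‖p x v‖ ≤ ‖v‖ := by
  have : ‖p x v‖ * ‖p x v‖ ≤ ‖v‖ * ‖p x v‖ := by
    rw [← real_inner_self_eq_norm_mul_norm, h.symm, h.idem]; exact real_inner_le_norm _ _
  rcases (norm_nonneg (p x v)).eq_or_lt with h0 | h0
  · rw [← h0]; positivity
  · exact le_of_mul_le_mul_right this h0

theorem l2_le (h : HY D) {V : Type} [NormedAddCommGroup V] [InnerProductSpace ℝ V]
    [CompleteSpace V] {p : Y → V →L[ℝ] V} (hk : 4 ≤ k) (a : D.F.H k p) {R : ℝ} {g : Y → ℝ}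
    (hg : Mp86.Dom D.F R g) (hR : ∀ x, ‖D.F.val _ _ a x‖ ^ 2 ≤ R + g x) :
    ⟪D.F.incl k 0 p a, D.F.incl k 0 p a⟫_ℝ ≤ (R + R / 2) * D.F.μ.real univ := by
  rw [Cgr76.inner_incl (Cgr76.hS h) hk hk]
  refine hg.integral_le (integ h hk hk a a) fun x => ?_
  rw [real_inner_self_eq_norm_sq]
  exact hR x

theorem bd_emb (h : Hy D β) (hk : 4 ≤ k) {T : CC D β j → CC D β k} (hT : RpT D β u j k T) {R : ℝ}
    {g : Y → ℝ} (h0 : 0 ≤ R) (hP : ∀ y, ‖u.gP β y‖ ^ 2 ≤ R * 1) (hg : Mp86.Dom D.F R g)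
    (hA : ∀ y, ‖u.gA β y‖ ^ 2 ≤ R + g y) :
    ‖D.F.incl k 0 _ (emb D β 2 k (T 0, 0))‖ ≤ √(5 * ((R + R / 2) * D.F.μ.real univ)) := by
  have e := fun x => hT.2 0 x
  rw [map_zero, (g_cf_zero u β).1, (g_cf_zero u β).2] at e
  have h1 := l2_le h.toHY hk (T 0).1 hg fun x => by
    rw [(e x).1]
    exact (pow_le_pow_left₀ (norm_nonneg _) (prj_le Lin97.prj_pc x _) 2).trans (hA x)
  have h2 := l2_le h.toHY hk (T 0).2 (.zero h0) fun x => by
    rw [(e x).2]
    exact (pow_le_pow_left₀ (norm_nonneg _) (prj_le h.prj_pv x _) 2).trans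
      ((hP x).trans_eq (by ring))
  rw [norm_eq_sqrt_real_inner, Lin97.incl_emb k.zero_le, Lin97.inner_emb two_ne_zero]
  refine Real.sqrt_le_sqrt ?_
  rw [map_zero, inner_zero_left, mul_zero, add_zero]
  change 2 ^ 2 * ⟪D.F.incl k 0 _ (T 0).1, D.F.incl k 0 _ (T 0).1⟫_ℝ +
    ⟪D.F.incl k 0 _ (T 0).2, D.F.incl k 0 _ (T 0).2⟫_ℝ ≤ _
  linarith

/-! ### regularity -/

/-- **Bootstrap**: the right hand side gains a derivative on every level. -/
theorem boot (h : Hy D β) (hO : OpY D β) {z : CC D β (k + 1) × GG D β (k + 1)}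
    {e : CC D β k × GG D β k}
    (he : D.F.lift 1 0 _ _ (lf D β) (D.F.incl (k + 1) 1 _ (emb D β (1 / 2) (k + 1) z)) =
      D.F.incl k 0 _ (emb D β 2 k e))
    (hr : ∀ m, k ≤ m → ∀ w : CC D β (m + 1), iC D β (m + 1) (k + 1) w = z.1 →
      ∃ r : CC D β (m + 1), (iC D β (m + 1) k r, 0) = e) :
    z.1 ∈ LinearMap.range (pt D β (k + 1)) := by
  obtain ⟨σ, B, C, hA, hc, ho, -⟩ := hO
  obtain ⟨C', hF⟩ := h.tame
  have hh : (1 / 2 : ℝ) ≠ 0 := by norm_num
  rw [Lin97.lift_eq (rep_OpH hA 0).1 ho, ← incl_OpH hA k.zero_le] at he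
  have he' := Ell97.incl_inj D.F k.zero_le _ he
  have hi : ∀ m, k ≤ m → ∀ w : XX D β (m + 1),
      D.F.incl (m + 1) (k + 1) _ w = emb D β (1 / 2) (k + 1) z →
      iC D β (m + 1) (k + 1) (Lin97.inv D β (1 / 2) (m + 1) w).1 = z.1 := fun m hm w hw => by
    rw [← Lin97.emb_inv hh w, Lin97.incl_emb (by omega)] at hw
    exact congrArg Prod.fst ((Lin97.emb_bij hh).1 hw)
  have all : ∀ m, k ≤ m → ∃ w : XX D β (m + 1),
      D.F.incl (m + 1) (k + 1) _ w = emb D β (1 / 2) (k + 1) z := fun m hm => by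
    induction m, hm using Nat.le_induction with
    | base => exact ⟨_, incl_self _⟩
    | succ m hm ih =>
      obtain ⟨w, hw⟩ := ih
      obtain ⟨r, hr'⟩ := hr m hm _ (hi m hm w hw)
      obtain ⟨y, hy, -⟩ := Ell97.reg_up hF hA hc.1 (j := m + 1) (by omega)
        (w := emb D β 2 (m + 1) (r, 0)) (he'.trans (by
          rw [← hr']
          exact ((Lin97.incl_emb (by omega) _).trans (by rw [map_zero])).symm))
      exact ⟨y, hy⟩
  have all' : ∀ m, k + 1 ≤ m → ∃ w : CC D β m, iC D β m (k + 1) w = z.1 := fun m hm => by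
    obtain ⟨m, rfl⟩ : ∃ n, m = n + 1 := ⟨m - 1, by omega⟩
    obtain ⟨w, hw⟩ := all m (by omega)
    exact ⟨_, hi m (by omega) w hw⟩
  obtain ⟨a, ha⟩ := Ell97.sec_of_all hF (x := z.1.1) fun m hm =>
    (all' m hm).elim fun w hw => ⟨w.1, congrArg Prod.fst hw⟩
  obtain ⟨b, hb⟩ := Ell97.sec_of_all hF (x := z.1.2) fun m hm =>
    (all' m hm).elim fun w hw => ⟨w.2, congrArg Prod.snd hw⟩
  exact ⟨(a, b), Prod.ext ha hb⟩

theorem mT_spec {i : BB D} (hs : Sm1 D i) (hβ : D.Adm β) (hk : 7 ≤ k) :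
    RpT D β (yf D i) (k + 1) (k + 1) (mT D β (yf D i) (k + 1) (k + 1)) :=
  Classical.epsilon_spec (hs.T β hβ k hk)

theorem mf_spec {i : BB D} (hs : Sm1 D i) (hβ : D.Adm β) (hk : 7 ≤ k) :
    Rpf D β (yf D i) (k + 1) (mf D β (yf D i) (k + 1)) :=
  Classical.epsilon_spec (hs.f β hβ k hk)

/-- the gradients on different levels are compatible -/
theorem lev (h : HY D) {m : ℕ} (hk : 4 ≤ k) (hm : k ≤ m) {T : CC D β (k + 1) → CC D β (k + 1)}
    {T' : CC D β (m + 1) → CC D β (m + 1)} (hT : RpT D β u (k + 1) (k + 1) T)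
    (hT' : RpT D β u (m + 1) (m + 1) T') (w : CC D β (m + 1)) :
    iC D β (k + 1) k (T 0) = iC D β (m + 1) k (T' 0) ∧
      fderiv ℝ (fun v => iC D β (k + 1) k (T v)) 0 (iC D β (m + 1) (k + 1) w) =
        iC D β (m + 1) k (fderiv ℝ T' 0 w) := by
  have h1 := RpT.post h hk k.le_succ hT
  have e := RpT.eq h hk (RpT.pre (m := m + 1) (by omega) h1) (RpT.post h hk (by omega) hT')
  refine ⟨by simpa using congrFun e 0, ?_⟩
  have d1 : HasFDerivAt (fun v => iC D β (k + 1) k (T v)) _ (iC D β (m + 1) (k + 1) 0) :=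
    (h1.1.differentiable (by simp) _).hasFDerivAt
  have d2 := d1.comp 0 (iC D β (m + 1) (k + 1)).hasFDerivAt
  have d3 := (iC D β (m + 1) k).hasFDerivAt.comp 0 (hT'.1.differentiable (by simp) 0).hasFDerivAt
  rw [map_zero] at d2
  exact DFunLike.congr_fun (d2.unique (d3.congr_of_eventuallyEq (.of_eq e))) w

theorem cpt_fd {T : CC D β (k + 1) → CC D β (k + 1)} (hT : ContDiff ℝ ∞ T) :
    IsCompactOperator (fderiv ℝ (fun v => iC D β (k + 1) k (T v)) 0) := by
  have d : HasFDerivAt (fun v => iC D β (k + 1) k (T v)) _ 0 :=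
    (iC D β (k + 1) k).hasFDerivAt.comp 0 (hT.differentiable (by simp) 0).hasFDerivAt
  rw [d.fderiv]
  exact (cpt_iC k.lt_succ_self).comp_clm (fderiv ℝ T 0)

theorem reg0 (h : Hy D β) (hO : OpY D β) (hs : ∀ i, Sm1 D i) (hk : 7 ≤ k)
    {z : CC D β (k + 1) × GG D β (k + 1)} {e : CC D β k × GG D β k}
    (he : D.F.lift 1 0 _ _ (lf D β) (D.F.incl (k + 1) 1 _ (emb D β (1 / 2) (k + 1) z)) =
      D.F.incl k 0 _ (emb D β 2 k e)) (S : Finset (BB D)) (c c' : BB D → ℝ)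
    (hz : e + (∑ i ∈ S, (c i • fderiv ℝ (fun v => iC D β (k + 1) k
      (mT D β (yf D i) (k + 1) (k + 1) v)) 0 z.1 +
        c' i • iC D β (k + 1) k (mT D β (yf D i) (k + 1) (k + 1) 0)), 0) = 0) :
    z.1 ∈ LinearMap.range (pt D β (k + 1)) := by
  refine boot h hO he fun m hm w hw => ?_
  refine ⟨-∑ i ∈ S, (c i • fderiv ℝ (mT D β (yf D i) (m + 1) (m + 1)) 0 w +
    c' i • mT D β (yf D i) (m + 1) (m + 1) 0), ?_⟩
  rw [eq_neg_of_add_eq_zero_left hz, map_neg, map_sum]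
  refine Prod.ext (congrArg Neg.neg (Finset.sum_congr rfl fun i _ => ?_)) neg_zero.symm
  obtain ⟨e1, e2⟩ := lev h.toHY (by omega) hm (mT_spec (hs i) h.toAdm hk)
    (mT_spec (hs i) h.toAdm (hk.trans hm)) w
  rw [map_add, map_smul, map_smul, ← e1, ← e2, hw]

/-- **CRIT-REG** from the linear theory. -/
theorem axSm (h : HY D) (ho : Op3 D) (hs : ∀ i, Sm1 D i) (hk : 7 ≤ k) (act : ActT D k)
    (sf : SfT D) (hL : (gm D k act sf).AxOp) : (gm D k act sf).AxSm := by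
  have h4 : 4 ≤ k := by omega
  have hτ : ∀ i (o : XY D), RpT D o.1 (yf D i) (k + 1) k ((gm D k act sf).τ i o) := fun i o =>
    RpT.post h h4 k.le_succ (mT_spec (hs i) o.2 hk)
  refine ⟨fun i o => (hτ i o).1, fun i o v => ?_, fun i o => ?_, fun i => (hs i).hs k hk act sf,
    fun i => ?_, fun i => ?_, fun i o v hi hv => ?_, fun o S c c' z hz => ?_⟩
  · exact Rpf.fd ⟨h, o.2⟩ (hs i).grad (by omega) h4 (hτ i o) (mf_spec (hs i) o.2 hk) v
  · exact cpt_fd (mT_spec (hs i) o.2 hk).1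
  · obtain ⟨R, hR⟩ := (hs i).bd
    refine ⟨R, fun o => ?_⟩
    have e := (mf_spec (hs i) o.2 hk).2 0
    rw [map_zero, cf_zero] at e
    exact (congrArg abs e).trans_le (hR o.1 o.2).1
  · obtain ⟨R, hR⟩ := (hs (.cy i)).bd
    refine ⟨√(5 * ((R + R / 2) * D.F.μ.real univ)), fun o => ?_⟩
    obtain ⟨h1, h2, g, h3, h5⟩ := hR o.1 o.2
    exact bd_emb ⟨h, o.2⟩ h4 (hτ _ o) ((abs_nonneg _).trans h1) h2.le h3 h5
  · exact van ⟨h, o.2⟩ (by omega) h4 hi (hτ i o) (mf_spec (hs i) o.2 hk) hv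
  · exact reg0 ⟨h, o.2⟩ (ho o.1 o.2).1 hs hk (hL.L0 o z) S c c' hz

/-- **CRIT-REG** -/
theorem regStmt (D : YD I3 Y κ lam) : RegStmt D := fun h _ ho hs _ hk act sf =>
  axSm h ho hs hk act sf (Lin97.lin D h ho _ hk act sf)

end Crest.Agent.X212.Reg44
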