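import Crest.Agent.X212.Lin97.Emb
import Crest.Agent.X212.Cgr76.Y

/-! Row 212, CRIT-REG (helper44): functionals and gradients on the Banach models. -/

set_option autoImplicit false
set_option linter.unusedSectionVars false
set_option maxHeartbeats 400000
noncomputable section
open scoped Manifold ContDiff Topology InnerProductSpace
open MeasureTheory Set Function Filter

namespace Crest.Agent.X212.Reg44
open An An.Pre Nd18 Crt72 Sob92
open Lin97 (Hy)

theorem fd_of_int {H Z : Type*} [NormedAddCommGroup H] [NormedSpace ℝ H] [NormedAddCommGroup Z]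
    [NormedSpace ℝ Z] [CompleteSpace Z] {N : H → Z} {A : H → H →L[ℝ] Z} (hA : Continuous A)
    (h : ∀ σ τ, N (σ + τ) - N σ = ∫ t in (0 : ℝ)..1, A (σ + t • τ) τ) (σ : H) :
    HasFDerivAt N (A σ) σ := by
  refine hasFDerivAt_iff_isLittleO_nhds_zero.2 (Asymptotics.isLittleO_iff.2 fun c hc => ?_)
  obtain ⟨r, hr, h1⟩ := Metric.continuous_iff.1 hA σ c hc
  filter_upwards [Metric.ball_mem_nhds (0 : H) hr] with τ hτ
  have hi : IntervalIntegrable (fun t : ℝ => A (σ + t • τ) τ) volume 0 1 :=
    Continuous.intervalIntegrable (by fun_prop) _ _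
  have h2 : N (σ + τ) - N σ - A σ τ = ∫ t in (0 : ℝ)..1, (A (σ + t • τ) τ - A σ τ) := by
    rw [h, intervalIntegral.integral_sub hi intervalIntegrable_const]; simp
  rw [h2]
  refine (intervalIntegral.norm_integral_le_of_norm_le_const (C := c * ‖τ‖) fun t ht => ?_).trans
    (by simp)
  rw [uIoc_of_le zero_le_one] at ht
  rw [← sub_apply]
  refine ContinuousLinearMap.le_of_opNorm_le _ ?_ _
  rw [← dist_eq_norm]
  refine (h1 _ ?_).le
  rw [dist_self_add_left, norm_smul, Real.norm_of_nonneg ht.1.le]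
  exact (mul_le_of_le_one_left (norm_nonneg _) ht.2).trans_lt (mem_ball_zero_iff.1 hτ)

theorem cont_int {H : Type*} [NormedAddCommGroup H] [NormedSpace ℝ H] {A : H → H →L[ℝ] ℝ}
    (hA : Continuous A) :
    Continuous fun p : H × H => ∫ t in (0 : ℝ)..1, A (p.1 + t • p.2) p.2 :=
  intervalIntegral.continuous_parametric_intervalIntegral_of_continuous' (μ := volume)
    (f := fun (p : H × H) (t : ℝ) => A (p.1 + t • p.2) p.2)
    (by unfold Function.uncurry; fun_prop) 0 1

theorem cont_int0 {H : Type*} [NormedAddCommGroup H] [NormedSpace ℝ H] {A : H → H →L[ℝ] ℝ}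
    (hA : Continuous A) (c : ℝ) : Continuous fun v : H => c + ∫ t in (0 : ℝ)..1, A (0 + t • v) v :=
  continuous_const.add ((cont_int hA).comp (continuous_const.prodMk continuous_id) :)

variable {E3 : Type} [NormedAddCommGroup E3] [NormedSpace ℝ E3] [FiniteDimensional ℝ E3]
  [MeasurableSpace E3] [BorelSpace E3]
  {H3 : Type} [TopologicalSpace H3] {I3 : ModelWithCorners ℝ E3 H3} [I3.Boundaryless]
  {Y : Type} [TopologicalSpace Y] [ChartedSpace H3 Y] [IsManifold I3 ∞ Y] [T2Space Y]
  [MeasurableSpace Y] [BorelSpace Y] [SecondCountableTopology Y] [CompactSpace Y]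
  {κ : Type} [Fintype κ] {lam : Type} [Fintype lam]
  {D : YD I3 Y κ lam} {β : YC Y κ lam} {u : YF Y κ lam} {j l : ℕ}

/-- a variation at `β` as a variation at `cf y` -/
def tr (y z : SP D β) : SP D (cf y) := z

theorem cf_cf (y z : SP D β) : cf (tr y z) = cf (y + z) := by
  have h1 : β.m.addC (β.m.addC β.W fun x => up κ _ (y.1.1 x)) (fun x => up κ _ (z.1.1 x)) =
      β.m.addC β.W fun x => up κ _ ((y + z).1.1 x) := funext₂ fun a x => by
    simp only [Md.addC, Prod.fst_add, Submodule.coe_add, Pi.add_apply, map_add, PiLp.add_apply,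
      add_assoc]
  have h2 : (fun x => β.Φ x + y.2.1 x + z.2.1 x) = fun x => β.Φ x + (y + z).2.1 x :=
    funext fun x => by simp only [Prod.snd_add, Submodule.coe_add, Pi.add_apply, add_assoc]
  exact congrArg₂ (fun W Φ => (⟨β.m, W, Φ, β.z⟩ : YC Y κ lam)) h1 h2

variable (D u) in
/-- the first variation formula -/
def Gr : Prop := ∀ β, D.Adm β → ∀ y : SP D β,
  HasDerivAt (fun ε : ℝ => u.f (cf (ε • y))) (ipg D u β y.1.1 y.2.1) 0

theorem der_line (h : Hy D β) (hg : Gr D u) (y z : SP D β) (t : ℝ) :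
    HasDerivAt (fun s : ℝ => u.f (cf (y + s • z))) (ipg D u (cf (y + t • z)) z.1.1 z.2.1) t := by
  have h1 := hg _ (h.adm_cf (y + t • z)) (tr (y + t • z) z)
  have h2 := HasDerivAt.comp_sub_const t t (by rw [sub_self]; exact h1)
  refine h2.congr_of_eventuallyEq (.of_forall fun s => ?_)
  have : cf ((s - t) • tr (y + t • z) z) = cf (y + t • z + (s - t) • z) :=
    cf_cf (y + t • z) ((s - t) • z)
  simp only [this]
  rw [add_assoc, ← add_smul, add_sub_cancel]

theorem integ (h : HY D) {V : Type} [NormedAddCommGroup V] [InnerProductSpace ℝ V] [CompleteSpace V]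
    {p : Y → V →L[ℝ] V} (hj : 4 ≤ j) (hl : 4 ≤ l) (a : D.F.H j p) (b : D.F.H l p) :
    Integrable (fun x => ⟪D.F.val _ _ a x, D.F.val _ _ b x⟫_ℝ) D.F.μ :=
  D.F.integrable_inner (continuous_val (Cgr76.hS h) hj a) (HasCompactSupport.of_compactSpace _)
    (continuous_val (Cgr76.hS h) hl b)

theorem ipg_eq (h : Hy D β) (hj : 4 ≤ j) (hl : 4 ≤ l) {T : CC D β j → CC D β l}
    (hT : RpT D β u j l T) (y z : SP D β) :
    ipg D u (cf y) z.1.1 z.2.1 = bb D β l j (T (pt D β j y)) (pt D β j z) := by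
  rw [Cgr76.bb_eq h.toHY hl hj, ← integral_add (integ h.toHY hl hj _ _) (integ h.toHY hl hj _ _),
    Cgr76.val_pt1 h.toHY hj, Cgr76.val_pt2 h.toHY hj]
  refine integral_congr_ae (.of_forall fun x => ?_)
  simp only [(hT.2 y x).1, (hT.2 y x).2]
  rw [Lin97.prj_pc.2, h.prj_pv.2, z.1.2.2.2 x, z.2.2.2.2 x]
  rfl

theorem ftc (h : Hy D β) (hg : Gr D u) (hj : 4 ≤ j) (hl : 4 ≤ l) {T : CC D β j → CC D β l}
    (hT : RpT D β u j l T) (y z : SP D β) : u.f (cf (y + z)) - u.f (cf y) =
      ∫ t in (0 : ℝ)..1, bb D β l j (T (pt D β j y + t • pt D β j z)) (pt D β j z) := by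
  have hc := hT.1.continuous
  have := intervalIntegral.integral_eq_sub_of_hasDerivAt (a := 0) (b := 1)
    (f := fun s : ℝ => u.f (cf (y + s • z)))
    (f' := fun t => bb D β l j (T (pt D β j y + t • pt D β j z)) (pt D β j z))
    (fun t _ => by
      have := der_line h hg y z t
      rwa [ipg_eq h hj hl hT, map_add, map_smul] at this)
    (Continuous.intervalIntegrable (by fun_prop) _ _)
  rw [this, one_smul, zero_smul, add_zero]

/-- **A functional with a represented gradient is represented.** -/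
theorem rpf_of (h : Hy D β) (hg : Gr D u) (hj : 4 ≤ j) (hl : 4 ≤ l) {T : CC D β j → CC D β l}
    (hT : RpT D β u j l T) : ∃ f, Rpf D β u j f := by
  have hc := hT.1.continuous
  have hA : Continuous fun v => bb D β l j (T v) := by fun_prop
  refine ⟨_, cont_int0 hA (u.f β), fun y => ?_⟩
  have := ftc h hg hj hl hT 0 y
  rw [zero_add, cf_zero, map_zero] at this
  simp only [← this, add_sub_cancel]

/-- **The gradient on the model.** -/
theorem Rpf.fd (h : Hy D β) (hg : Gr D u) (hj : 4 ≤ j) (hl : 4 ≤ l) {T : CC D β j → CC D β l}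
    (hT : RpT D β u j l T) {f : CC D β j → ℝ} (hf : Rpf D β u j f) (v : CC D β j) :
    HasFDerivAt f (bb D β l j (T v)) v := by
  have hc := hT.1.continuous
  have hA : Continuous fun v => bb D β l j (T v) := by fun_prop
  have hf1 := hf.1
  refine fd_of_int hA (fun σ τ => ?_) v
  have hd : DenseRange (Prod.map (pt D β j) (pt D β j)) := Lin97.dense_pt.prodMap Lin97.dense_pt
  have := hd.equalizer (g := fun p : CC D β j × CC D β j => f (p.1 + p.2) - f p.1) (by fun_prop)
    (cont_int hA) (funext fun p => by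
      simp only [Function.comp, Prod.map_fst, Prod.map_snd]
      rw [← map_add, hf.2, hf.2, ftc h hg hj hl hT])
  exact congrFun this (σ, τ)

/-- representations are unique -/
theorem RpT.eq (h : HY D) (hl : 4 ≤ l) {T T' : CC D β j → CC D β l} (hT : RpT D β u j l T)
    (hT' : RpT D β u j l T') : T = T' :=
  Lin97.dense_pt.equalizer hT.1.continuous hT'.1.continuous (funext fun y =>
    Cgr76.cc_ext h hl (fun x a => by simp only [Function.comp]; rw [(hT.2 y x).1, (hT'.2 y x).1])
      fun x => by simp only [Function.comp]; rw [(hT.2 y x).2, (hT'.2 y x).2])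

theorem iC_pt (hl : l ≤ j) (y : SP D β) : iC D β j l (pt D β j y) = pt D β l y :=
  Prod.ext (incl_toH hl _) (incl_toH hl _)

theorem iC_iC {m : ℕ} (h1 : m ≤ l) (h2 : l ≤ j) (v : CC D β j) :
    iC D β l m (iC D β j l v) = iC D β j m v :=
  Prod.ext (incl_incl h2 h1 _) (incl_incl h2 h1 _)

theorem RpT.post (h : HY D) {m : ℕ} (hm : 4 ≤ m) (hl : m ≤ l) {T : CC D β j → CC D β l}
    (hT : RpT D β u j l T) : RpT D β u j m fun v => iC D β l m (T v) :=
  ⟨(iC D β l m).contDiff.comp hT.1, fun y x =>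
    ⟨(congrFun (val_incl (Cgr76.hS h) hm hl _) x).trans (hT.2 y x).1,
      (congrFun (val_incl (Cgr76.hS h) hm hl _) x).trans (hT.2 y x).2⟩⟩

theorem RpT.pre {m : ℕ} (hm : j ≤ m) {T : CC D β j → CC D β l}
    (hT : RpT D β u j l T) : RpT D β u m l fun v => T (iC D β m j v) :=
  ⟨hT.1.comp (iC D β m j).contDiff, fun y x => by
    simp only [iC_pt hm]; exact hT.2 y x⟩

theorem cpt_iC (h : l < j) : IsCompactOperator (iC D β j l) := by
  have e : iC D β j l =
      ContinuousLinearMap.inl ℝ _ _ ∘L D.F.incl j l _ ∘L ContinuousLinearMap.fst ℝ _ _ +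
      ContinuousLinearMap.inr ℝ _ _ ∘L D.F.incl j l _ ∘L ContinuousLinearMap.snd ℝ _ _ :=
    ContinuousLinearMap.ext fun v => by simp [iC]; rfl
  rw [e]
  have h1 : IsCompactOperator (D.F.incl j l (pc D β)) := Cht98.rellich h
  have h2 : IsCompactOperator (D.F.incl j l (pv D β)) := Cht98.rellich h
  exact ((h1.comp_clm (ContinuousLinearMap.fst ℝ _ _)).clm_comp
    (ContinuousLinearMap.inl ℝ _ _)).add
      ((h2.comp_clm (ContinuousLinearMap.snd ℝ _ _)).clm_comp (ContinuousLinearMap.inr ℝ _ _))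

end Crest.Agent.X212.Reg44
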